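import Vale.Agent.P281.H969.TG.Spec

/-!
# P281, project T-G (helper349), blocks G3 and G5: the sheets of a generically finite map
-/

open Set Filter Metric
open scoped Topology ContDiff Manifold
open Vale.Agent.P272.K (Cm)
open Vale.Agent.P281.H969.TG (SheetStmt LiftQStmt)

set_option linter.all false

noncomputable section

namespace Vale.Agent.P281.H349.TG

section
variable {E V : Type} [NormedAddCommGroup E] [NormedSpace ℂ E] [NormedAddCommGroup V]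
  [NormedSpace ℂ V] [CompleteSpace E] [CompleteSpace V]

/-- inverse function theorem with analyticity on the whole source and target (helper740) -/
theorem exists_locdiff {Φ : E → V} {a : E} {G : E ≃L[ℂ] V} (hΦ : ContDiffAt ℂ ω Φ a)
    (hG : HasFDerivAt Φ (G : E →L[ℂ] V) a) :
    ∃ Ψ : OpenPartialHomeomorph E V, (Ψ : E → V) = Φ ∧ a ∈ Ψ.source ∧
      (∀ u ∈ Ψ.source, ContDiffAt ℂ ω Φ u) ∧ ∀ w ∈ Ψ.target, ContDiffAt ℂ ω Ψ.symm w := by
  have hn0 : (ω : WithTop ℕ∞) ≠ 0 := by simp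
  set O : Set E := {u | ContDiffAt ℂ ω Φ u ∧ ∃ G' : E ≃L[ℂ] V, HasFDerivAt Φ (G' : E →L[ℂ] V) u}
    with hO
  have hOa : O ∈ 𝓝 a := by
    have h1 : ∀ᶠ u in 𝓝 a, ContDiffAt ℂ ω Φ u := hΦ.eventually (by simp)
    have h2 : ContinuousAt (fderiv ℂ Φ) a :=
      (hΦ.fderiv_right (m := 1) (by simp)).continuousAt
    have h3 : range ((↑) : (E ≃L[ℂ] V) → E →L[ℂ] V) ∈ 𝓝 (fderiv ℂ Φ a) := by
      rw [hG.fderiv]
      exact G.nhds
    filter_upwards [h1, h2.eventually h3] with u a1 a2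
    obtain ⟨G', hG'⟩ := a2
    refine ⟨a1, G', ?_⟩
    rw [hG']
    exact (a1.differentiableAt (by simp)).hasFDerivAt
  refine ⟨(hΦ.toOpenPartialHomeomorph Φ hG hn0).restrOpen (interior O) isOpen_interior, rfl,
    ⟨hΦ.mem_toOpenPartialHomeomorph_source hG hn0, mem_interior_iff_mem_nhds.2 hOa⟩, ?_, ?_⟩
  · rintro u ⟨-, hu⟩
    exact (interior_subset hu).1
  · intro w hw
    set Ψ := (hΦ.toOpenPartialHomeomorph Φ hG hn0).restrOpen (interior O) isOpen_interior with hΨ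
    have h1 : Ψ.symm w ∈ Ψ.source := Ψ.map_target hw
    obtain ⟨h2, G', hG'⟩ := interior_subset h1.2
    exact Ψ.contDiffAt_symm (f₀' := G') hw hG' h2

end

variable {n : ℕ} {X₁ X : Type} [TopologicalSpace X₁] [ChartedSpace (Cm n) X₁]
  [IsManifold 𝓘(ℂ, Cm n) ω X₁] [TopologicalSpace X] [ChartedSpace (Cm n) X]
  [IsManifold 𝓘(ℂ, Cm n) ω X] {u : X₁ → X}

/-- the local inverses of `u` -/
theorem exists_locdiff_man (hu : ContMDiff 𝓘(ℂ, Cm n) 𝓘(ℂ, Cm n) ω u) {x₁ : X₁}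
    (hi : Function.Injective (mfderiv 𝓘(ℂ, Cm n) 𝓘(ℂ, Cm n) u x₁)) :
    ∃ φ : OpenPartialHomeomorph X₁ X, x₁ ∈ φ.source ∧ EqOn u φ φ.source ∧
      ∀ w ∈ φ.target, ContMDiffAt 𝓘(ℂ, Cm n) 𝓘(ℂ, Cm n) ω φ.symm w := by
  classical
  set G : Cm n → Cm n := writtenInExtChartAt 𝓘(ℂ, Cm n) 𝓘(ℂ, Cm n) x₁ u with hG
  set a : Cm n := extChartAt 𝓘(ℂ, Cm n) x₁ x₁ with ha
  have h1 : ContDiffAt ℂ ω G a := by
    have := (contMDiffAt_iff.1 (hu x₁)).2
    rw [hG, ha]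
    simpa [writtenInExtChartAt, contDiffWithinAt_univ] using this
  have h2 : mfderiv 𝓘(ℂ, Cm n) 𝓘(ℂ, Cm n) u x₁ = fderiv ℂ G a := by
    rw [((hu x₁).mdifferentiableAt (by simp)).mfderiv]
    simp only [ModelWithCorners.range_eq_univ, fderivWithin_univ]
    rfl
  have hinj : Function.Injective (fderiv ℂ G a) := by
    rw [h2] at hi
    exact hi
  let e : Cm n ≃L[ℂ] Cm n := (LinearEquiv.ofInjectiveEndo (fderiv ℂ G a : Cm n →ₗ[ℂ] Cm n)
    hinj).toContinuousLinearEquiv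
  have he : (e : Cm n →L[ℂ] Cm n) = fderiv ℂ G a := by
    ext v
    rfl
  have hd : HasFDerivAt G (e : Cm n →L[ℂ] Cm n) a := by
    rw [he]
    exact (h1.differentiableAt (by simp)).hasFDerivAt
  obtain ⟨Ψ, hΨ, haΨ, -, hΨs⟩ := exists_locdiff h1 hd
  set χ := chartAt (Cm n) x₁ with hχ
  set χ' := chartAt (Cm n) (u x₁) with hχ'
  have hGv : ∀ t, G t = χ' (u (χ.symm t)) := fun t => by
    rw [hG]
    simp [writtenInExtChartAt, hχ, hχ']
  have hax : a = χ x₁ := by rw [ha]; simp [hχ]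
  have hxs : x₁ ∈ χ.source := mem_chart_source _ x₁
  have hus : u x₁ ∈ χ'.source := mem_chart_source _ (u x₁)
  have hO : IsOpen (u ⁻¹' χ'.source) := χ'.open_source.preimage hu.continuous
  set φ₀ : OpenPartialHomeomorph X₁ X := χ.trans (Ψ.trans χ'.symm) with hφ₀
  set φ : OpenPartialHomeomorph X₁ X := φ₀.restrOpen _ hO with hφ
  refine ⟨φ, ?_, ?_, ?_⟩
  · refine ⟨⟨hxs, ?_⟩, hus⟩
    show χ x₁ ∈ (Ψ.trans χ'.symm).source
    refine ⟨by rw [← hax]; exact haΨ, ?_⟩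
    show Ψ (χ x₁) ∈ χ'.target
    rw [hΨ, hGv, χ.left_inv hxs]
    exact χ'.map_source hus
  · rintro z ⟨⟨hz1, hz2⟩, hz3⟩
    show u z = χ'.symm (Ψ (χ z))
    rw [hΨ, hGv, χ.left_inv hz1, χ'.left_inv hz3]
  · intro w hw
    have hw1 : w ∈ φ₀.target := by
      have h5 := φ.map_target hw
      have h6 : φ₀.symm w ∈ φ₀.source := h5.1
      have h7 : w ∈ φ.target := hw
      rw [hφ, OpenPartialHomeomorph.restrOpen_toPartialEquiv] at h7
      exact h7.1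
    obtain ⟨⟨hw2, hw3⟩, hw4⟩ := hw1
    have hw2' : w ∈ χ'.source := hw2
    have hw3' : χ' w ∈ Ψ.target := hw3
    have hw4' : Ψ.symm (χ' w) ∈ χ.target := hw4
    have k1 : ContMDiffAt 𝓘(ℂ, Cm n) 𝓘(ℂ, Cm n) ω χ' w :=
      contMDiffAt_of_mem_maximalAtlas (IsManifold.chart_mem_maximalAtlas _) hw2'
    have k2 : ContMDiffAt 𝓘(ℂ, Cm n) 𝓘(ℂ, Cm n) ω Ψ.symm (χ' w) := (hΨs _ hw3').contMDiffAt
    have k3 : ContMDiffAt 𝓘(ℂ, Cm n) 𝓘(ℂ, Cm n) ω χ.symm (Ψ.symm (χ' w)) :=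
      contMDiffAt_symm_of_mem_maximalAtlas (IsManifold.chart_mem_maximalAtlas _) hw4'
    exact ContMDiffAt.comp (g := χ.symm) (f := fun w => Ψ.symm (χ' w)) w k3
      (ContMDiffAt.comp (g := Ψ.symm) (f := χ') w k2 k1)

/-- the differential of `u` is injective on the source of `φ` -/
theorem inj_of_locdiff (hu : ContMDiff 𝓘(ℂ, Cm n) 𝓘(ℂ, Cm n) ω u)
    {φ : OpenPartialHomeomorph X₁ X} (h : EqOn u φ φ.source)
    (hs : ∀ w ∈ φ.target, ContMDiffAt 𝓘(ℂ, Cm n) 𝓘(ℂ, Cm n) ω φ.symm w) {z : X₁}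
    (hz : z ∈ φ.source) : Function.Injective (mfderiv 𝓘(ℂ, Cm n) 𝓘(ℂ, Cm n) u z) := by
  have h1 : (φ.symm ∘ u) =ᶠ[𝓝 z] id := by
    filter_upwards [φ.open_source.mem_nhds hz] with z' hz'
    show φ.symm (u z') = z'
    rw [h hz', φ.left_inv hz']
  have h2 : MDifferentiableAt 𝓘(ℂ, Cm n) 𝓘(ℂ, Cm n) φ.symm (u z) := by
    refine (hs _ ?_).mdifferentiableAt (by simp)
    rw [h hz]
    exact φ.map_source hz
  have h3 := mfderiv_comp z h2 ((hu z).mdifferentiableAt (by simp))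
  rw [h1.mfderiv_eq, mfderiv_id] at h3
  intro ξ ξ' hξ
  have h4 := congrArg (fun L : Cm n →L[ℂ] Cm n => L ξ) h3
  have h5 := congrArg (fun L : Cm n →L[ℂ] Cm n => L ξ') h3
  have h6 : ξ = mfderiv 𝓘(ℂ, Cm n) 𝓘(ℂ, Cm n) φ.symm (u z)
      (mfderiv 𝓘(ℂ, Cm n) 𝓘(ℂ, Cm n) u z ξ) := h4
  have h7 : ξ' = mfderiv 𝓘(ℂ, Cm n) 𝓘(ℂ, Cm n) φ.symm (u z)
      (mfderiv 𝓘(ℂ, Cm n) 𝓘(ℂ, Cm n) u z ξ') := h5
  rw [h6, h7, hξ]

/-- the points where `u` is étale -/
def Et (n : ℕ) {X₁ X : Type} [TopologicalSpace X₁] [ChartedSpace (Cm n) X₁]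
    [TopologicalSpace X] [ChartedSpace (Cm n) X] (u : X₁ → X) : Set X₁ :=
  {x₁ | Function.Injective (mfderiv 𝓘(ℂ, Cm n) 𝓘(ℂ, Cm n) u x₁)}

theorem isOpen_et (hu : ContMDiff 𝓘(ℂ, Cm n) 𝓘(ℂ, Cm n) ω u) : IsOpen (Et n u) := by
  rw [isOpen_iff_mem_nhds]
  intro x₁ hx₁
  obtain ⟨φ, h1, h2, h3⟩ := exists_locdiff_man hu hx₁
  filter_upwards [φ.open_source.mem_nhds h1] with z hz
  exact inj_of_locdiff hu h2 h3 hz

/-- continuous lifts are holomorphic -/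
theorem hol_of_cont (hu : ContMDiff 𝓘(ℂ, Cm n) 𝓘(ℂ, Cm n) ω u) {A : Type}
    [NormedAddCommGroup A] [NormedSpace ℂ A] {B : Type} [TopologicalSpace B] [ChartedSpace A B]
    {Q : B → X} {Q₁ : B → X₁} {b : B} (hQ : ContMDiffAt 𝓘(ℂ, A) 𝓘(ℂ, Cm n) ω Q b)
    (hc : ContinuousAt Q₁ b) (hi : Q₁ b ∈ Et n u) (h : ∀ᶠ z in 𝓝 b, u (Q₁ z) = Q z) :
    ContMDiffAt 𝓘(ℂ, A) 𝓘(ℂ, Cm n) ω Q₁ b := by
  obtain ⟨φ, h1, h2, h3⟩ := exists_locdiff_man hu hi
  have h4 : Q b = φ (Q₁ b) := by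
    rw [← h.self_of_nhds, h2 h1]
  have h5 : ContMDiffAt 𝓘(ℂ, A) 𝓘(ℂ, Cm n) ω (fun z => φ.symm (Q z)) b := by
    refine ContMDiffAt.comp (g := φ.symm) (f := Q) b (h3 _ ?_) hQ
    rw [h4]
    exact φ.map_source h1
  refine h5.congr_of_eventuallyEq ?_
  filter_upwards [h, hc.eventually (φ.open_source.mem_nhds h1)] with z a1 a2
  rw [← a1, h2 a2, φ.left_inv a2]

/-- the points over which `u` is étale -/
def Et' (n : ℕ) {X₁ X : Type} [TopologicalSpace X₁] [ChartedSpace (Cm n) X₁]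
    [TopologicalSpace X] [ChartedSpace (Cm n) X] (u : X₁ → X) : Set X :=
  {x | ∀ x₁, u x₁ = x → x₁ ∈ Et n u}

theorem isOpen_et' [CompactSpace X₁] [T2Space X] (hu : ContMDiff 𝓘(ℂ, Cm n) 𝓘(ℂ, Cm n) ω u) :
    IsOpen (Et' n u) := by
  have h1 : Et' n u = (u '' (Et n u)ᶜ)ᶜ := by
    ext x
    constructor
    · rintro h ⟨x₁, h2, h3⟩
      exact h2 (h x₁ h3)
    · intro h x₁ hx₁
      by_contra h2
      exact h ⟨x₁, h2, hx₁⟩
  rw [h1]
  exact ((isOpen_et hu).isClosed_compl.isCompact.image hu.continuous).isClosed.isOpen_compl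

/-- `u` is a covering over these points -/
theorem covOn [T2Space X₁] [CompactSpace X₁] [T2Space X]
    (hu : ContMDiff 𝓘(ℂ, Cm n) 𝓘(ℂ, Cm n) ω u) : IsCoveringMapOn u (Et' n u) := by
  refine IsCoveringMapOn.of_isLocalHomeomorphOn hu.continuous ?_
  refine IsLocalHomeomorphOn.mk u _ fun x₁ hx₁ => ?_
  obtain ⟨φ, h1, h2, -⟩ := exists_locdiff_man hu (hx₁ x₁ rfl)
  exact ⟨φ, h1, h2⟩

/-- **G3** -/
theorem sheet : SheetStmt := by
  intro n X₁ X _ _ _ _ _ _ _ _ _ u hu x hx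
  classical
  have hx' : x ∈ Et' n u := hx
  have hev : IsEvenlyCovered u x (u ⁻¹' {x}) := covOn hu x hx'
  have hdisc : DiscreteTopology (u ⁻¹' {x}) := hev.1
  have hfin : (u ⁻¹' {x}).Finite :=
    (isClosed_singleton.preimage hu.continuous).isCompact.finite ⟨hdisc⟩
  rcases (u ⁻¹' {x}).eq_empty_or_nonempty with h0 | h0
  · -- no sheets
    have hcl : IsClosed (range u) := (isCompact_range hu.continuous).isClosed
    refine ⟨0, Fin.elim0, (range u)ᶜ, hcl.isOpen_compl, ?_, fun j => j.elim0,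
      fun z _ j => j.elim0, ?_⟩
    · rintro ⟨x₁, hx₁⟩
      have h1 : x₁ ∈ u ⁻¹' {x} := hx₁
      rw [h0] at h1
      exact h1
    · intro z hz x₁ hx₁
      exact absurd ⟨x₁, hx₁⟩ hz
  · have : Nonempty (u ⁻¹' {x}) := h0.to_subtype
    have : Finite (u ⁻¹' {x}) := hfin
    obtain ⟨m, ⟨e⟩⟩ := Finite.exists_equiv_fin (u ⁻¹' {x})
    set t := hev.toTrivialization with ht
    have hxt : x ∈ t.baseSet := hev.mem_toTrivialization_baseSet
    set s : Fin m → X → X₁ := fun j z => t.toOpenPartialHomeomorph.symm (z, e.symm j) with hs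
    have hus : ∀ j, ∀ z ∈ t.baseSet, u (s j z) = z := fun j z hz => t.proj_symm_apply' hz
    have hts : ∀ j, ∀ z ∈ t.baseSet, t (s j z) = (z, e.symm j) := fun j z hz =>
      t.apply_symm_apply' hz
    refine ⟨m, s, t.baseSet ∩ Et' n u, t.open_baseSet.inter (isOpen_et' hu), ⟨hxt, hx'⟩,
      ?_, ?_, ?_⟩
    · rintro j z ⟨hz, hz'⟩
      refine ⟨?_, hus j z hz⟩
      have hcont : ContinuousAt (s j) z := by
        have h1 : ContinuousAt t.toOpenPartialHomeomorph.symm (z, e.symm j) :=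
          t.toOpenPartialHomeomorph.symm.continuousAt (t.mem_target.2 hz)
        have h2 : ContinuousAt (fun z : X => (z, e.symm j)) z := by fun_prop
        exact ContinuousAt.comp (g := t.toOpenPartialHomeomorph.symm)
          (f := fun z : X => (z, e.symm j)) h1 h2
      refine hol_of_cont (Q := fun z => z) hu contMDiffAt_id hcont (hz' _ (hus j z hz)) ?_
      filter_upwards [t.open_baseSet.mem_nhds hz] with z' hz1
      exact hus j z' hz1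
    · rintro z ⟨hz, -⟩ j j' hjj
      have h1 : t (s j z) = t (s j' z) := congrArg t hjj
      rw [hts j z hz, hts j' z hz] at h1
      exact e.symm.injective (congrArg Prod.snd h1)
    · rintro z ⟨hz, hz'⟩ x₁ hx₁
      refine ⟨⟨e (t x₁).2, ?_⟩, hz' x₁ hx₁⟩
      have h1 : x₁ ∈ t.source := t.mem_source.2 (by rw [hx₁]; exact hz)
      have h2 : t x₁ = (z, (t x₁).2) := Prod.ext ((t.coe_fst h1).trans hx₁) rfl
      show t.toOpenPartialHomeomorph.symm (z, e.symm (e (t x₁).2)) = x₁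
      rw [e.symm_apply_apply, ← h2]
      exact t.toOpenPartialHomeomorph.left_inv h1

/-- **G5** -/
theorem liftQ : LiftQStmt := by
  intro n d X₁ X _ _ _ _ _ _ _ _ _ u hu Q v₀ r hr hQ x₁ hx₁
  classical
  have hv₀ : v₀ ∈ ball v₀ r := mem_ball_self hr
  have hcov : IsCoveringMap ((Et' n u).restrictPreimage u) :=
    (covOn hu).isCoveringMap_restrictPreimage
  have hQE : ∀ v ∈ ball v₀ r, Q v ∈ Et' n u := fun v hv => (hQ v hv).2
  have : LocallyPathConnectedSpace (ball v₀ r) := isOpen_ball.locallyPathConnectedSpace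
  have : ContractibleSpace (ball v₀ r) :=
    (convex_ball v₀ r).contractibleSpace (nonempty_ball.2 hr)
  let φ : C(ball v₀ r, Et' n u) := ⟨fun v => ⟨Q v, hQE v v.2⟩, by
    refine Continuous.subtype_mk ?_ _
    have h1 : ContinuousOn Q (ball v₀ r) := fun v hv => (hQ v hv).1.continuousAt.continuousWithinAt
    exact h1.comp_continuous continuous_subtype_val fun v => v.2⟩
  obtain ⟨Φ, ⟨hΦ0, hΦ⟩, -⟩ := hcov.existsUnique_continuousMap_lifts φ ⟨v₀, hv₀⟩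
    ⟨x₁, by rw [mem_preimage, hx₁]; exact hQE v₀ hv₀⟩ (Subtype.ext hx₁)
  have hΦ' : ∀ v : ball v₀ r, u (Φ v).1 = Q v := fun v =>
    congrArg Subtype.val (congrFun hΦ v)
  set Q₁ : Cm d → X₁ := fun v => if h : v ∈ ball v₀ r then (Φ ⟨v, h⟩).1 else x₁ with hQ₁
  have hQ₁v : ∀ v (hv : v ∈ ball v₀ r), Q₁ v = (Φ ⟨v, hv⟩).1 := fun v hv => by
    rw [hQ₁]
    simp only
    rw [dif_pos hv]
  have huQ : ∀ v ∈ ball v₀ r, u (Q₁ v) = Q v := fun v hv => by rw [hQ₁v v hv, hΦ']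
  have hcont : ∀ v ∈ ball v₀ r, ContinuousAt Q₁ v := by
    intro v hv
    have h1 : ContinuousOn Q₁ (ball v₀ r) := by
      rw [continuousOn_iff_continuous_domRestrict]
      have h2 : (ball v₀ r).domRestrict Q₁ = fun v => (Φ v).1 := by
        funext v
        exact hQ₁v v v.2
      rw [h2]
      exact continuous_subtype_val.comp Φ.continuous
    exact h1.continuousAt (isOpen_ball.mem_nhds hv)
  refine ⟨Q₁, ?_, fun v hv => ⟨?_, huQ v hv⟩⟩
  · rw [hQ₁v v₀ hv₀, hΦ0]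
  · refine hol_of_cont hu (hQ v hv).1 (hcont v hv) ((hQ v hv).2 _ (huQ v hv)) ?_
    filter_upwards [isOpen_ball.mem_nhds hv] with v' hv'
    exact huQ v' hv'

end Vale.Agent.P281.H349.TG

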